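import Mathlib

/-!
# The Leibniz rule for functions vanishing to a given order along some of the coordinates
-/

namespace Vale.Agent.P269.G2.H333

open Finset

set_option linter.unusedSectionVars false

/-- a derivation, as a function -/
structure IsDer {R : Type*} [CommRing R] (δ : R → R) : Prop where
  add : ∀ f g, δ (f + g) = δ f + δ g
  mul : ∀ f g, δ (f * g) = δ f * g + f * δ g

theorem IsDer.zero {R : Type*} [CommRing R] {δ : R → R} (h : IsDer δ) : δ 0 = 0 := by
  have := h.add 0 0
  rw [add_zero] at this
  exact left_eq_add.1 this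

section one

variable {R S κ : Type*} [CommRing R] [CommRing S] (D : κ → R → R) (ev : R →+* S)

/-- the iterated derivative along a list -/
def dl : List κ → R → R
  | [], f => f
  | v :: w, f => dl w (D v f)

@[simp] theorem dl_nil (f : R) : dl D [] f = f := rfl

@[simp] theorem dl_cons (v : κ) (w : List κ) (f : R) : dl D (v :: w) f = dl D w (D v f) := rfl

theorem dl_append (u w : List κ) (f : R) : dl D (u ++ w) f = dl D w (dl D u f) := by
  induction u generalizing f with
  | nil => rfl
  | cons v u ih => simp [ih]

variable {D} in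
theorem dl_add (hD : ∀ v, IsDer (D v)) (w : List κ) (f g : R) :
    dl D w (f + g) = dl D w f + dl D w g := by
  induction w generalizing f g with
  | nil => rfl
  | cons v w ih => rw [dl_cons, (hD v).add, ih, dl_cons, dl_cons]

variable {D} in
theorem dl_zero (hD : ∀ v, IsDer (D v)) (w : List κ) : dl D w (0 : R) = 0 := by
  induction w with
  | nil => rfl
  | cons v w ih => rw [dl_cons, (hD v).zero, ih]

variable {D} in
theorem dl_sum (hD : ∀ v, IsDer (D v)) {α : Type*} (w : List κ) (s : Finset α) (f : α → R) :
    dl D w (∑ i ∈ s, f i) = ∑ i ∈ s, dl D w (f i) := by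
  classical
  induction s using Finset.induction_on with
  | empty => simp [dl_zero hD]
  | insert a s ha ih => rw [sum_insert ha, sum_insert ha, dl_add hD, ih]

/-- `g` vanishes to order `n`: all derivatives of order less than `n` are zero -/
def Van (n : ℕ) (g : R) : Prop := ∀ u : List κ, u.length < n → ev (dl D u g) = 0

variable {D ev}

theorem Van.mono {m n : ℕ} {g : R} (h : Van D ev n g) (hmn : m ≤ n) : Van D ev m g :=
  fun u hu => h u (by omega)

theorem Van.deriv {n : ℕ} {g : R} (h : Van D ev (n + 1) g) (v : κ) : Van D ev n (D v g) :=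
  fun u hu => h (v :: u) (by simpa using hu)

/-- **[L0]** -/
theorem dl_mul_of_van (hD : ∀ v, IsDer (D v)) {n : ℕ} {g : R} (h : Van D ev n g) (f : R)
    (w : List κ)
    (hw : w.length ≤ n) : ev (dl D w (f * g)) = ev f * ev (dl D w g) := by
  induction w generalizing n f g with
  | nil => simp
  | cons v w ih =>
    obtain ⟨m, rfl⟩ : ∃ m, n = m + 1 := ⟨n - 1, by simp at hw; omega⟩
    have hw' : w.length ≤ m := by simpa using hw
    rw [dl_cons, (hD v).mul, dl_add hD, map_add, ih (h.mono (Nat.le_succ m)) (D v f) hw',
      ih (h.deriv v) f hw', h w (by omega), mul_zero, zero_add, dl_cons]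

/-- **[L1]** -/
theorem dl_mul_of_van' (hD : ∀ v, IsDer (D v)) {n : ℕ} {g : R} (h : Van D ev n g) (f : R)
    (hf : ev f = 0) (w : List κ)
    (hw : w.length ≤ n + 1) : ev (dl D w (f * g)) =
      ∑ k : Fin w.length, ev (D (w.get k) f) * ev (dl D (w.eraseIdx k) g) := by
  induction w generalizing n f g with
  | nil => simp [hf]
  | cons v w ih =>
    have hw' : w.length ≤ n := by simpa using hw
    rw [dl_cons, (hD v).mul, dl_add hD, map_add, dl_mul_of_van hD h (D v f) w hw']
    have e2 : ev (dl D w (f * D v g)) =
        ∑ k : Fin w.length, ev (D (w.get k) f) * ev (dl D (w.eraseIdx k) (D v g)) := by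
      rcases n with _ | n
      · have : w = [] := List.length_eq_zero_iff.1 (by omega)
        subst this
        simp [hf]
      · exact ih (h.deriv v) f hf hw'
    rw [e2]
    change _ = ∑ k : Fin (w.length + 1), _
    rw [Fin.sum_univ_succ]
    rfl

/-- permutation invariance -/
theorem dl_perm (hc : ∀ a b f, D a (D b f) = D b (D a f)) {u w : List κ} (h : u.Perm w) (f : R) :
    dl D u f = dl D w f := by
  induction h generalizing f with
  | nil => rfl
  | cons x h ih => simp [ih]
  | swap x y l => simp [hc]
  | trans h1 h2 ih1 ih2 => rw [ih1, ih2]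

theorem dl_comm (hc : ∀ a b f, D a (D b f) = D b (D a f)) (v : κ) (w : List κ) (f : R) :
    dl D w (D v f) = D v (dl D w f) := by
  induction w generalizing f with
  | nil => rfl
  | cons x w ih => rw [dl_cons, hc, ih, dl_cons]

end one

section two

variable {R S ι κ : Type*} [CommRing R] [CommRing S] [Fintype ι] [Fintype κ] [DecidableEq κ]
  (D : ι ⊕ κ → R → R) (ev : R →+* S) (d : ι → S → S)

/-- **[L2]** the derivative of a function along a vector field, at the locus where the
coordinates in `κ` are zero -/
theorem dl_field (hD : ∀ i, IsDer (D i)) (hc : ∀ a b f, D a (D b f) = D b (D a f))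
    (hev : ∀ i f, ev (D (Sum.inl i) f) = d i (ev f)) (hd : ∀ i, d i 0 = 0)
    (V : ι ⊕ κ → R) (ρ : κ → S) (hV0 : ∀ b, ev (V (Sum.inr b)) = 0)
    (hV1 : ∀ v b, ev (D (Sum.inr v) (V (Sum.inr b))) = if v = b then ρ v else 0)
    (a : R) (w : List κ) (h : Van (fun v => D (Sum.inr v)) ev w.length a) :
    ev (dl (fun v => D (Sum.inr v)) w (∑ i, V i * D i a)) =
      ∑ i, ev (V (Sum.inl i)) * d i (ev (dl (fun v => D (Sum.inr v)) w a)) +
        (w.map ρ).sum * ev (dl (fun v => D (Sum.inr v)) w a) := by
  have hcc : ∀ (i : ι ⊕ κ) (u : List κ) (f : R),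
      dl (fun v => D (Sum.inr v)) u (D i f) = D i (dl (fun v => D (Sum.inr v)) u f) := by
    intro i u f
    induction u generalizing f with
    | nil => rfl
    | cons x u ih => rw [dl_cons, hc, ih, dl_cons]
  have hD' : ∀ v : κ, IsDer (D (Sum.inr v)) := fun v => hD _
  rw [Fintype.sum_sum_type, dl_add hD', map_add, dl_sum hD', dl_sum hD', map_sum, map_sum]
  congr 1
  · refine sum_congr rfl fun i _ => ?_
    rw [dl_mul_of_van hD' (n := w.length) _ _ _ le_rfl, hcc, hev]
    intro u hu
    rw [hcc, hev, h u hu, hd]
  · have key : ∀ b : κ, ev (dl (fun v => D (Sum.inr v)) w (V (Sum.inr b) * D (Sum.inr b) a)) =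
        ∑ k : Fin w.length, (if w.get k = b then ρ (w.get k) else 0) *
          ev (dl (fun v => D (Sum.inr v)) w a) := by
      intro b
      have hvan : Van (fun v => D (Sum.inr v)) ev (w.length - 1) (D (Sum.inr b) a) := by
        intro u hu
        have := h (b :: u) (by simp; omega)
        simpa using this
      rw [dl_mul_of_van' hD' hvan _ (hV0 b) w (by omega)]
      refine sum_congr rfl fun k _ => ?_
      rw [hV1]
      by_cases hb : w.get k = b
      · rw [if_pos hb]
        congr 2
        have h2 : dl (fun v => D (Sum.inr v)) (w.eraseIdx k) (D (Sum.inr b) a) =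
            dl (fun v => D (Sum.inr v)) (b :: w.eraseIdx k) a := rfl
        rw [h2]
        apply dl_perm (D := fun v : κ => D (Sum.inr v))
          (fun x y f => hc (Sum.inr x) (Sum.inr y) f)
        rw [← hb]
        exact List.getElem_cons_eraseIdx_perm k.2
      · rw [if_neg hb, zero_mul, zero_mul]
    rw [sum_congr rfl fun b _ => key b, sum_comm, ← List.sum_map_mul_right]
    have h3 : ∀ k : Fin w.length, ∑ b, (if w.get k = b then ρ (w.get k) else 0) *
        ev (dl (fun v => D (Sum.inr v)) w a) =
          ρ (w.get k) * ev (dl (fun v => D (Sum.inr v)) w a) := by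
      intro k
      rw [← sum_mul, sum_ite_eq, if_pos (mem_univ _)]
    rw [sum_congr rfl fun k _ => h3 k]
    rw [← List.sum_ofFn]
    congr 1
    apply List.ext_getElem
    · simp
    · intro n h1 h2
      simp

end two

end Vale.Agent.P269.G2.H333
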