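import Vale.Agent.P269.G2.H333.RhoA
import Vale.Agent.P269.G2.H333.RhoB
import Vale.Agent.P269.G2.H333.Ev0

/-!
# [G2] the powers of the Euler field near the zeros of the primitive coordinates
-/

set_option autoImplicit false

namespace Vale.Agent.P269.G2.H333

open Finset.HasAntidiagonal (antidiagonal)
open Vale.Agent.P269.CI Vale.Agent.P269.G1

variable {X : CompleteIntersection} {F : ℕ → ℕ → List (Ins X) → ℂ}

variable (hF : IsGW X F) (h1 : IsGenusOne F)

section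

variable (c : Ix X → Ix X → Ix X → MvPowerSeries (Ix X) (PowerSeries ℂ))
  (E : Ix X → MvPowerSeries (Ix X) (PowerSeries ℂ))
  (x : ℕ → Ix X → MvPowerSeries (Ix X) (PowerSeries ℂ))

/-- the ambient components of the powers of the Euler field -/
theorem ev0_pow_inl
    (c0 : ∀ i j k, ev0 (c (Sum.inl i) (Sum.inl j) (Sum.inl k)) = qc F i j k)
    (hE : ∀ i, ev0 (E (Sum.inl i)) = Eu hF h1 i) (hE0 : ∀ b, ev0 (E (Sum.inr b)) = 0)
    (c1 : ∀ i j b, ev0 (c (Sum.inl i) (Sum.inl j) (Sum.inr b)) = 0)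
    (x0 : ∀ k, x 0 k = if k = Sum.inl 0 then 1 else 0)
    (xs : ∀ m k, x (m + 1) k = ∑ i, ∑ j, E i * x m j * c i j k) (m : ℕ)
    (k : Fin (X.dim + 1)) :
    ev0 (x m (Sum.inl k)) = (Eu hF h1 ^ m : AA hF h1) k := by
  have hx : ∀ m b, ev0 (x m (Sum.inr b)) = 0 :=
    pow_inr ev0 c c1 E hE0 x (fun b => by rw [x0, if_neg (by simp)]) xs
  induction m generalizing k with
  | zero =>
    rw [x0, pow_zero]
    change _ = if k = 0 then (1 : RR X) else 0
    by_cases h : k = 0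
    · subst h; simp
    · rw [if_neg h, if_neg (by simpa using h), map_zero]
  | succ m ih =>
    rw [xs, pow_succ', map_sum, Fintype.sum_sum_type]
    have z : ∑ u : X.Prim, ev0 (∑ j, E (Sum.inr u) * x m j * c (Sum.inr u) j (Sum.inl k)) =
        0 := by
      refine Finset.sum_eq_zero fun u _ => ?_
      rw [map_sum]
      refine Finset.sum_eq_zero fun j _ => ?_
      rw [map_mul, map_mul, hE0, zero_mul, zero_mul]
    rw [z, add_zero]
    change _ = ∑ i, ∑ j, Eu hF h1 i * (Eu hF h1 ^ m : AA hF h1) j * qc F i j k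
    refine Finset.sum_congr rfl fun i _ => ?_
    rw [map_sum, Fintype.sum_sum_type]
    have z2 : ∑ u : X.Prim, ev0 (E (Sum.inl i) * x m (Sum.inr u) *
        c (Sum.inl i) (Sum.inr u) (Sum.inl k)) = 0 := by
      refine Finset.sum_eq_zero fun u _ => ?_
      rw [map_mul, map_mul, hx, mul_zero, zero_mul]
    rw [z2, add_zero]
    refine Finset.sum_congr rfl fun j _ => ?_
    rw [map_mul, map_mul, hE, ih, c0]

/-- **[r1]** the first derivative of the powers of the Euler field in primitive directions -/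
theorem ev0_pow_inr
    (c0 : ∀ i j k, ev0 (c (Sum.inl i) (Sum.inl j) (Sum.inl k)) = qc F i j k)
    (c1 : ∀ i j b, ev0 (c (Sum.inl i) (Sum.inl j) (Sum.inr b)) = 0)
    (c2 : ∀ i u b, ev0 (c (Sum.inl i) (Sum.inr u) (Sum.inr b)) = if u = b then lamc h1 i else 0)
    (c2' : ∀ i u b, ev0 (c (Sum.inr u) (Sum.inl i) (Sum.inr b)) =
      if u = b then lamc h1 i else 0)
    (c3 : ∀ v i j b, ev0 (MvPowerSeries.pderiv (PowerSeries ℂ) (Sum.inr v)
      (c (Sum.inl i) (Sum.inl j) (Sum.inr b))) =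
        if v = b then MvPowerSeries.pderiv (PowerSeries ℂ) j (lamc h1 i) else 0)
    (hE : ∀ i, ev0 (E (Sum.inl i)) = Eu hF h1 i) (hE0 : ∀ b, ev0 (E (Sum.inr b)) = 0)
    (hE1 : ∀ v i, ev0 (MvPowerSeries.pderiv (PowerSeries ℂ) (Sum.inr v) (E (Sum.inl i))) = 0)
    (hE2 : ∀ v b, ev0 (MvPowerSeries.pderiv (PowerSeries ℂ) (Sum.inr v) (E (Sum.inr b))) =
      if v = b then 1 - ((X.hodgeP v : ℕ) : RR X) else 0)
    (x0 : ∀ k, x 0 k = if k = Sum.inl 0 then 1 else 0)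
    (xs : ∀ m k, x (m + 1) k = ∑ i, ∑ j, E i * x m j * c i j k) (m : ℕ) (v b : X.Prim) :
    ev0 (MvPowerSeries.pderiv (PowerSeries ℂ) (Sum.inr v) (x m (Sum.inr b))) =
      if v = b then (1 - cst X (mu X (Sum.inr v))) *
        ((m : RR X) * (lam hF h1 (Eu hF h1)) v ^ (m - 1)) +
          (lam hF h1 ((frob hF h1).phi m)) v else 0 := by
  have hp := ev0_pow_inl hF h1 c E x c0 hE hE0 c1 x0 xs
  -- the sequence given by the recursion
  let rhoF : X.Prim → ℕ → RR X := fun v m => Nat.rec (motive := fun _ => RR X) 0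
    (fun m r => (∑ i, ev0 (E (Sum.inl i)) * lamc h1 i) * r +
      (1 - ((X.hodgeP v : ℕ) : RR X)) * (∑ j, ev0 (x m (Sum.inl j)) * lamc h1 j) +
      ∑ i, ∑ j, ev0 (E (Sum.inl i)) * ev0 (x m (Sum.inl j)) *
        MvPowerSeries.pderiv (PowerSeries ℂ) j (lamc h1 i)) m
  refine (rho_rec (fun v => DD (Sum.inr v)) (fun v => isDer_DD _) ev0 c (lamc h1)
    (fun i j => MvPowerSeries.pderiv (PowerSeries ℂ) j (lamc h1 i)) c1 c2 c2' c3 E
    (fun v => 1 - ((X.hodgeP v : ℕ) : RR X)) hE0 hE1 hE2 x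
    (fun b => by rw [x0, if_neg (by simp)]) xs rhoF (fun _ => rfl) (fun _ _ => rfl) m v b).trans ?_
  congr 1
  refine rho_eq hF h1 v (rhoF v) rfl (fun m => ?_) m
  change (∑ i, ev0 (E (Sum.inl i)) * lamc h1 i) * rhoF v m +
      (1 - ((X.hodgeP v : ℕ) : RR X)) * (∑ j, ev0 (x m (Sum.inl j)) * lamc h1 j) +
      ∑ i, ∑ j, ev0 (E (Sum.inl i)) * ev0 (x m (Sum.inl j)) *
        MvPowerSeries.pderiv (PowerSeries ℂ) j (lamc h1 i) = _
  simp only [hE, hp]
  have e3 : (lam hF h1 (Eu hF h1)) v ^ m = ∑ j, (Eu hF h1 ^ m : AA hF h1) j * lamc h1 j := by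
    rw [← Pi.pow_apply ((lam hF h1) (Eu hF h1)) m v, ← map_pow (lam hF h1)]
    rfl
  rw [e3]
  rfl

end

end Vale.Agent.P269.G2.H333
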