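import Vale.Agent.P269.G2.XSpec

/-!
# [Yd] the Euler field near the zeros of the primitive coordinates
-/

namespace Vale.Agent.P269.G2.H333

open Finset.HasAntidiagonal (antidiagonal)
open Vale.Agent.P269.CI
open Vale.Agent.P269.G1 (RR ser cst lamc Eu lam AA cq)
open Vale.Agent.P269.G2.H984 (RF rhoc dP)

variable {X : CompleteIntersection} {F : ℕ → ℕ → List (Ins X) → ℂ}

theorem ne_hcls (v : X.Prim) : (Sum.inr v : Ix X) ≠ hcls X := by
  unfold hcls
  simp

theorem phi_EM_inr (hF : IsGW X F) (he : Even X.dim) (v : X.Prim) :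
    phi X (EM hF he (Sum.inr v)) =
      (1 - ((X.hodgeP v : ℕ) : RF X)) * MvPowerSeries.X (Sum.inr v : Ix X) := by
  have h : EM hF he (Sum.inr v) =
      (1 - ((X.hodgeP v : ℕ) : RM X)) * MvPowerSeries.X ((E0 X).i0 (Sum.inr v)) := by
    change (1 - ((X.hodgeP v : ℕ) : RM X)) * MvPowerSeries.X ((E0 X).i0 (Sum.inr v)) +
      (if (Sum.inr v : Ix X) = hcls X then ((index X : ℤ) : RM X) else 0) = _
    rw [if_neg (ne_hcls v), add_zero]
  rw [h, map_mul, map_sub, map_one, map_natCast, phi_X]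

theorem phi_EM_inl (hF : IsGW X F) (he : Even X.dim) (j : Fin (X.dim + 1)) :
    phi X (EM hF he (Sum.inl j)) =
      (1 - ((j : ℕ) : RF X)) * MvPowerSeries.X (Sum.inl j : Ix X) +
        if (j : ℕ) = 1 then ((index X : ℤ) : RF X) else 0 := by
  have hh : (Sum.inl j : Ix X) = hcls X ↔ (j : ℕ) = 1 := by
    unfold hcls
    rw [Sum.inl.injEq, Fin.ext_iff]
  have h : EM hF he (Sum.inl j) =
      (1 - ((j : ℕ) : RM X)) * MvPowerSeries.X ((E0 X).i0 (Sum.inl j)) +
        if (j : ℕ) = 1 then ((index X : ℤ) : RM X) else 0 := by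
    change (1 - ((j : ℕ) : RM X)) * MvPowerSeries.X ((E0 X).i0 (Sum.inl j)) +
      (if (Sum.inl j : Ix X) = hcls X then ((index X : ℤ) : RM X) else 0) = _
    congr 1
    by_cases h : (j : ℕ) = 1
    · rw [if_pos h, if_pos (hh.2 h)]
    · rw [if_neg h, if_neg (fun h2 => h (hh.1 h2))]
  rw [h, map_add, map_mul, map_sub, map_one, map_natCast, phi_X]
  congr 1
  by_cases h : (j : ℕ) = 1
  · rw [if_pos h, if_pos h, map_intCast]
  · rw [if_neg h, if_neg h, map_zero]

/-- **[Yd]** -/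
theorem ev0_EM_inl (hF : IsGW X F) (he : Even X.dim) (h1 : IsGenusOne F)
    (i : Fin (X.dim + 1)) : ev0 (phi X (EM hF he (Sum.inl i))) = Eu hF h1 i := by
  rw [phi_EM_inl, map_add, map_mul, map_sub, map_one, map_natCast, ev0_X_inl]
  change _ = (1 - ((i : ℕ) : RR X)) * MvPowerSeries.X i +
    if (i : ℕ) = 1 then ((index X : ℤ) : RR X) else 0
  by_cases h : (i : ℕ) = 1
  · rw [if_pos h, if_pos h, map_intCast]
  · rw [if_neg h, if_neg h, map_zero]

/-- **[Yd]** -/
theorem ev0_EM_inr (hF : IsGW X F) (he : Even X.dim) (b : X.Prim) :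
    ev0 (phi X (EM hF he (Sum.inr b))) = 0 := by
  rw [phi_EM_inr, map_mul, ev0_X_inr, mul_zero]

theorem pderiv_sub_mul (a : Ix X) (n : ℕ) (f : RF X) :
    MvPowerSeries.pderiv (PowerSeries ℂ) a ((1 - (n : RF X)) * f) =
      (1 - (n : RF X)) * MvPowerSeries.pderiv (PowerSeries ℂ) a f := by
  rw [Derivation.leibniz, map_sub, Derivation.map_natCast, Derivation.map_one_eq_zero, sub_zero,
    smul_zero, add_zero, smul_eq_mul]

/-- **[Yd]** -/
theorem ev0_pd_EM_inl (hF : IsGW X F) (he : Even X.dim) (v : X.Prim) (i : Fin (X.dim + 1)) :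
    ev0 (MvPowerSeries.pderiv (PowerSeries ℂ) (Sum.inr v) (phi X (EM hF he (Sum.inl i)))) = 0 := by
  rw [phi_EM_inl, map_add, pderiv_sub_mul, MvPowerSeries.pderiv_X_of_ne (by simp), mul_zero,
    zero_add]
  by_cases h : (i : ℕ) = 1
  · rw [if_pos h, Derivation.map_intCast, map_zero]
  · rw [if_neg h, map_zero, map_zero]

/-- **[Yd]** -/
theorem ev0_pd_EM_inr (hF : IsGW X F) (he : Even X.dim) (v b : X.Prim) :
    ev0 (MvPowerSeries.pderiv (PowerSeries ℂ) (Sum.inr v) (phi X (EM hF he (Sum.inr b)))) =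
      if v = b then 1 - ((X.hodgeP v : ℕ) : RR X) else 0 := by
  rw [phi_EM_inr, pderiv_sub_mul]
  by_cases h : v = b
  · subst h
    rw [MvPowerSeries.pderiv_X_self, if_pos rfl, mul_one, map_sub, map_one, map_natCast]
  · rw [if_neg h, MvPowerSeries.pderiv_X_of_ne (by simpa using Ne.symm h), mul_zero, map_zero]

end Vale.Agent.P269.G2.H333
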